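import Crest.Agent.N233.Hyp.Act
import Crest.Agent.N255.Ra.Cube
import Crest.Agent.R061.Cox

/-!
# Row 255 (helper38): hyperplanes of a locally convex labelled graph, distance to convex sets
-/

set_option autoImplicit false

noncomputable section

namespace Crest.Agent.N255.Fa

open Ra N233.Hyp R061

variable {A P : Type} {Γ : SimpleGraph A} {st : P → A → P → Prop}

/-- the side of the hyperplane `r` on which `u` lies -/
def sw (r u : W Γ) : ZMod 2 := eta (cs Γ) u⁻¹ r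

/-- the hyperplane of the edge `a` at `u` -/
def hw (u : W Γ) (a : A) : W Γ := u * gen Γ a * u⁻¹

theorem ne_iff (x y : ZMod 2) : x ≠ y ↔ y = x + 1 := by revert x y; decide

theorem ne_trans {x y z : ZMod 2} (h : x ≠ y) (k : y ≠ z) : x = z := by revert x y z; decide

open Classical in
theorem sw_mul_gen (r u : W Γ) (a : A) : sw r (u * gen Γ a) = sw r u + if r = hw u a then 1 else 0 := by
  rw [sw, mul_inv_rev, gen_inv, eta_mul, gen, eta_simple, inv_inv, sw]
  congr 2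
  refine propext ⟨fun h => ?_, fun h => ?_⟩
  · rw [hw, gen, ← h]; group
  · rw [h, hw, gen]; group

theorem hw_mul_self (u : W Γ) (a : A) : hw (u * gen Γ a) a = hw u a := by simp [hw, mul_assoc]

theorem hw_inj {u : W Γ} {a b : A} (h : hw u a = hw u b) : a = b :=
  gen_injective (by simpa [hw] using h)

theorem hw_comm {u v : W Γ} {a : A} (h : Commute (gen Γ a) v) : hw (u * v) a = hw u a := by
  rw [hw, hw, mul_assoc u, ← h.eq]; group

theorem sw_ne_iff (u v : W Γ) (a : A) : sw (hw u a) u ≠ sw (hw u a) v ↔ a ∈ In (v⁻¹ * u) := by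
  have h1 := eta_mul (cs Γ) v⁻¹ u (gen Γ a)
  have h2 := eta_mul (cs Γ) u⁻¹ u (gen Γ a)
  rw [inv_mul_cancel, eta_one] at h2
  have h3 : a ∈ In (v⁻¹ * u) ↔ eta (cs Γ) (v⁻¹ * u) (gen Γ a) = 1 :=
    (eta_eq_one_iff (cs Γ) ((cs Γ).isReflection_simple a)).symm
  rw [h3, h1]
  change _ = _ + sw (hw u a) u at h2
  change _ ↔ _ + sw (hw u a) v = 1
  revert h2
  generalize sw (hw u a) u = x
  generalize sw (hw u a) v = y
  generalize eta (cs Γ) u (gen Γ a) = z
  revert x y z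
  decide

theorem sw_pr [DecidableEq A] {r u : W Γ} {σ : Finset A} (hσ : Γ.IsClique (σ : Set A))
    (h : ∀ a ∈ σ, r ≠ hw u a) : sw r (u * pr Γ σ) = sw r u := by
  induction σ using Finset.induction_on with
  | empty => simp
  | insert a σ ha ih =>
    have c : Commute (gen Γ a) (pr Γ σ) := comm_pr fun t ht n =>
      hσ (Finset.mem_insert_self _ _) (Finset.mem_insert_of_mem ht) n
    rw [pr_insert hσ ha, ← mul_assoc, sw_mul_gen, hw_comm c, if_neg (h a (Finset.mem_insert_self _ _)),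
      add_zero, ih (hσ.subset (by simp)) fun b hb => h b (Finset.mem_insert_of_mem hb)]

variable (φ : P → W Γ)

/-- the side of a vertex -/
def sd (r : W Γ) (x : P) : ZMod 2 := sw r (φ x)

/-- the hyperplane of the edge `a` at `x` -/
def hp (x : P) (a : A) : W Γ := hw (φ x) a

/-- the hyperplanes separating `x` from `Q` -/
def Sep (Q : Set P) (x : P) : Set (W Γ) := {r | ∀ z ∈ Q, sd φ r x ≠ sd φ r z}

/-- their number -/
def ns (Q : Set P) (x : P) : ℕ := (Sep φ Q x).ncard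

/-- `Q` lies on one side of `r` -/
def Vert (Q : Set P) (r : W Γ) : Prop := ∀ z ∈ Q, ∀ z' ∈ Q, sd φ r z = sd φ r z'

/-- a nonempty intersection of half spaces -/
structure Cvx (Q : Set P) : Prop where
  ne : Q.Nonempty
  sep : ∀ x, x ∉ Q → (Sep φ Q x).Nonempty

variable {φ} {Q Q' : Set P} {x y z : P} {a b : A} {r : W Γ}

theorem sd_ne_iff : sd φ (hp φ x a) x ≠ sd φ (hp φ x a) z ↔ a ∈ In ((φ z)⁻¹ * φ x) := sw_ne_iff _ _ _

theorem Sep.vert (h : r ∈ Sep φ Q x) : Vert φ Q r := fun z hz z' hz' => ne_trans (h z hz).symm (h z' hz')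

theorem Sep.congr (h : r ∈ Sep φ Q x) (e : sd φ r y = sd φ r x) : r ∈ Sep φ Q y := fun z hz => e ▸ h z hz

theorem Vert.sep (h : Vert φ Q r) (n : r ∉ Sep φ Q x) (e : sd φ r x ≠ sd φ r y) : r ∈ Sep φ Q y := by
  simp only [Sep, Set.mem_ofPred_eq, not_forall, not_not] at n
  obtain ⟨z, hz, n⟩ := n
  exact fun z' hz' => by rw [← h z hz z' hz', ← n]; exact e.symm

theorem Sep.anti (h : Q ⊆ Q') : Sep φ Q' x ⊆ Sep φ Q x := fun _ k z hz => k z (h hz)

theorem sep_empty (h : x ∈ Q) : Sep φ Q x = ∅ := Set.eq_empty_of_forall_notMem fun _ k => k x h rfl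

theorem ns_zero (h : x ∈ Q) : ns φ Q x = 0 := by rw [ns, sep_empty h, Set.ncard_empty]

/-- two hyperplanes at `x` separating `x` from the same point cross -/
theorem adj_of_sep (h : sd φ (hp φ x a) x ≠ sd φ (hp φ x a) z) (k : sd φ (hp φ x b) x ≠ sd φ (hp φ x b) z)
    (e : a ≠ b) : Γ.Adj a b := In_clique _ (sd_ne_iff.1 h) (sd_ne_iff.1 k) e

/-- a horizontal and a descending hyperplane at `x` cross -/
theorem adj_of_hor (h : hp φ x a ∈ Sep φ Q x) (k : ¬Vert φ Q (hp φ x b)) : Γ.Adj a b := by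
  obtain ⟨z, hz, n⟩ : ∃ z ∈ Q, sd φ (hp φ x b) x ≠ sd φ (hp φ x b) z := by
    by_contra c
    simp only [not_exists, not_and, not_not] at c
    exact k fun z hz z' hz' => (c z hz).symm.trans (c z' hz')
  exact adj_of_sep (h z hz) n fun e => k (e ▸ Sep.vert h)

theorem adj_of_desc (hQ : Q.Nonempty) (h : hp φ x a ∈ Sep φ Q x) (k : hp φ x b ∈ Sep φ Q x) (e : a ≠ b) :
    Γ.Adj a b := adj_of_sep (h _ hQ.some_mem) (k _ hQ.some_mem) e

section lab
variable (H : Lab Γ st φ)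
include H

theorem hp_st (h : st x a y) : hp φ y a = hp φ x a := by rw [hp, H.map _ _ _ h, hw_mul_self, hp]

theorem hp_adj (h : st x a y) (e : Γ.Adj a b) : hp φ y b = hp φ x b := by
  rw [hp, H.map _ _ _ h, hw_comm (gen_comm e.symm), hp]

theorem sd_st (h : st x a y) (e : r ≠ hp φ x a) : sd φ r y = sd φ r x := by
  rw [sd, H.map _ _ _ h, sw_mul_gen, ← hp, if_neg e, add_zero, sd]

theorem sd_st_ne (h : st x a y) : sd φ (hp φ x a) x ≠ sd φ (hp φ x a) y := by
  rw [ne_iff, sd, H.map _ _ _ h, sw_mul_gen, ← hp, if_pos rfl, sd]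

/-- a hyperplane at `x` separating `x` from a vertex is dual to an edge of the graph -/
theorem exists_st (h : sd φ (hp φ x a) x ≠ sd φ (hp φ x a) z) : ∃ y, st x a y :=
  (H.down (H.rd z x) a (sd_ne_iff.1 h)).imp fun _ h => h.1

theorem step' {n : ℕ} (h : dl φ z x = n + 1) :
    ∃ a y, st x a y ∧ dl φ z y = n ∧ sd φ (hp φ x a) x ≠ sd φ (hp φ x a) z := by
  obtain ⟨a, y, h1, h2⟩ := H.step h
  refine ⟨a, y, h1, h2, sd_ne_iff.2 ?_⟩
  rw [dl, H.map _ _ _ h1, ← mul_assoc] at h2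
  show len _ < len _
  unfold dl at h
  omega

theorem sep_st (h : st x a y) : Sep φ Q y ⊆ insert (hp φ x a) (Sep φ Q x) := fun _ k =>
  or_iff_not_imp_left.2 fun e => Sep.congr k (sd_st H h e).symm

theorem sep_pt (z : P) (n : ℕ) : ∀ x, dl φ z x = n → (Sep φ {z} x).Finite ∧ (Sep φ {z} x).ncard ≤ n := by
  induction n with
  | zero => intro x h; rw [← H.eq_of_dl h, sep_empty (Set.mem_singleton z)]; simp
  | succ n ih =>
    intro x h
    obtain ⟨a, y, h1, h2⟩ := H.step h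
    have k := sep_st H (Q := {z}) (H.symm _ _ _ h1)
    have f := (ih y h2).1.insert (hp φ y a)
    exact ⟨f.subset k, (Set.ncard_le_ncard k f).trans
      ((Set.ncard_insert_le _ _).trans (Nat.succ_le_succ (ih y h2).2))⟩

theorem sep_finite (hQ : Q.Nonempty) (x : P) : (Sep φ Q x).Finite :=
  (sep_pt H _ _ x rfl).1.subset (Sep.anti (Set.singleton_subset_iff.2 hQ.some_mem))

theorem ns_le_dl (hz : z ∈ Q) (x : P) : ns φ Q x ≤ dl φ z x :=
  (Set.ncard_le_ncard (Sep.anti (Set.singleton_subset_iff.2 hz)) (sep_pt H _ _ x rfl).1).trans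
    (sep_pt H _ _ x rfl).2


theorem ns_anti (hQ : Q.Nonempty) (h : Q ⊆ Q') : ns φ Q' x ≤ ns φ Q x :=
  Set.ncard_le_ncard (Sep.anti h) (sep_finite H hQ x)

/-- a descending edge -/
theorem sep_desc (hQ : Q.Nonempty) (h : st x a y) (k : hp φ x a ∈ Sep φ Q x) :
    Sep φ Q x = insert (hp φ x a) (Sep φ Q y) ∧ hp φ x a ∉ Sep φ Q y := by
  refine ⟨Set.Subset.antisymm (hp_st H h ▸ sep_st H (H.symm _ _ _ h)) (Set.insert_subset k fun r hr => ?_),
    fun n => ?_⟩
  · exact (sep_st H h hr).elim (fun e => e ▸ k) id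
  · exact sd_st_ne H h (ne_trans (k _ hQ.some_mem) (n _ hQ.some_mem).symm)

theorem ns_desc (hQ : Q.Nonempty) (h : st x a y) (k : hp φ x a ∈ Sep φ Q x) : ns φ Q x = ns φ Q y + 1 := by
  rw [ns, (sep_desc H hQ h k).1, Set.ncard_insert_of_notMem (sep_desc H hQ h k).2 (sep_finite H hQ y), ns]

/-- an edge descending to `Q` does not leave the neighbourhoods of larger sets -/
theorem sep_desc_mono (hQ : Q.Nonempty) (hQ' : Q ⊆ Q') (h : st x a y) (k : hp φ x a ∈ Sep φ Q x) :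
    Sep φ Q' y ⊆ Sep φ Q' x := fun _ hr => (sep_st H h hr).resolve_left fun e =>
  (sep_desc H hQ h k).2 (e ▸ Sep.anti hQ' hr)

/-- existence of descending edges -/
theorem exists_desc (hQ : Q.Nonempty) (h : (Sep φ Q x).Nonempty) :
    ∃ a y, st x a y ∧ hp φ x a ∈ Sep φ Q x := by
  obtain ⟨z, hz⟩ := hQ
  obtain ⟨r, hr⟩ := h
  suffices k : ∃ a, hp φ x a ∈ Sep φ Q x from k.elim fun a k =>
    (exists_st H (k z hz)).elim fun y h => ⟨a, y, h, k⟩
  generalize e : dl φ z x = n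
  induction n generalizing x with
  | zero => exact absurd (congrArg _ (H.eq_of_dl e).symm) (hr z hz)
  | succ n ih =>
    obtain ⟨a, y, h1, h2, h3⟩ := step' H e
    by_cases c : hp φ x a ∈ Sep φ Q x
    · exact ⟨a, c⟩
    obtain ⟨b, hb⟩ := ih (Sep.congr hr (sd_st H h1 fun e => c (e ▸ hr))) h2
    simp only [Sep, Set.mem_ofPred_eq, not_forall, not_not] at c
    obtain ⟨z', hz', c⟩ := c
    have n : a ≠ b := by
      rintro rfl
      exact hb z hz (hp_st H h1 ▸ ne_trans (sd_st_ne H h1).symm h3)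
    have j : Γ.Adj a b := adj_of_sep (x := y) (by
      rw [hp_st H h1, ← c]; exact (sd_st_ne H h1).symm) (hb z' hz') n
    rw [hp_adj H h1 j] at hb
    exact ⟨b, Sep.congr hb (sd_st H h1 fun e => n (hw_inj e).symm).symm⟩

theorem Cvx.exists_dl (hQ : Cvx φ Q) (x : P) : ∃ z ∈ Q, dl φ z x ≤ ns φ Q x := by
  generalize e : ns φ Q x = n
  induction n generalizing x with
  | zero =>
    refine ⟨x, by_contra fun c => ?_, (dl_self x).le⟩
    exact ((Set.ncard_pos (sep_finite H hQ.ne x)).2 (hQ.sep x c)).ne' e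
  | succ n ih =>
    obtain ⟨a, y, h1, h2⟩ := exists_desc H hQ.ne (x := x) (Set.nonempty_of_ncard_ne_zero (by
      rw [← ns, e]; omega))
    obtain ⟨z, hz, k⟩ := ih y (by have := ns_desc H hQ.ne h1 h2; omega)
    have := dl_tri (φ := φ) z y x
    have := H.dl_st (H.symm _ _ _ h1)
    exact ⟨z, hz, by omega⟩

/-- `ns` is the distance -/
theorem Cvx.ns_le_iff (hQ : Cvx φ Q) {k : ℕ} : ns φ Q x ≤ k ↔ ∃ z ∈ Q, dl φ z x ≤ k :=
  ⟨fun h => (hQ.exists_dl H x).imp fun _ k => ⟨k.1, k.2.trans h⟩,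
    fun ⟨_, hz, h⟩ => (ns_le_dl H hz x).trans h⟩

theorem Cvx.ns_lip (hQ : Cvx φ Q) (x y : P) : ns φ Q y ≤ ns φ Q x + dl φ x y := by
  obtain ⟨z, hz, k⟩ := hQ.exists_dl H x
  have := dl_tri (φ := φ) z x y
  have := ns_le_dl H hz y
  omega

theorem Cvx.mem_of_ns (hQ : Cvx φ Q) (h : ns φ Q x = 0) : x ∈ Q := by
  obtain ⟨z, hz, k⟩ := hQ.exists_dl H x
  rwa [← H.eq_of_dl (x := z) (y := x) (by omega)]

theorem Cvx.ns_map_le {ψ : P → P} (hψ : ∀ x a y, st x a y → ∃ b, st (ψ x) b (ψ y)) (hQ : Cvx φ Q)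
    (h : ∀ z ∈ Q, ψ z ∈ Q') (x : P) : ns φ Q' (ψ x) ≤ ns φ Q x := by
  obtain ⟨z, hz, k⟩ := hQ.exists_dl H x
  exact (ns_le_dl H (h z hz) _).trans ((H.dl_map_le hψ _ _ _ rfl).trans k)

/-- a horizontal edge -/
theorem sep_hor (h : st x a y) (v : ¬Vert φ Q (hp φ x a)) : Sep φ Q y = Sep φ Q x :=
  Set.ext fun _ => ⟨fun k => Sep.congr k (sd_st H h fun e => v (e ▸ Sep.vert k)).symm,
    fun k => Sep.congr k (sd_st H h fun e => v (e ▸ Sep.vert k))⟩

/-- points with the same separating hyperplanes have the same descending edges -/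
theorem hp_par (hQ : Q.Nonempty) (e : Sep φ Q x = Sep φ Q y) (h : hp φ x a ∈ Sep φ Q x) :
    hp φ y a = hp φ x a := by
  generalize hn : dl φ y x = n
  induction n generalizing x with
  | zero => rw [H.eq_of_dl hn]
  | succ n ih =>
    obtain ⟨b, x', h1, h2, h3⟩ := step' H hn
    have v : ¬Vert φ Q (hp φ x b) := fun v => by
      by_cases c : hp φ x b ∈ Sep φ Q x
      · exact h3 (ne_trans (c _ hQ.some_mem) ((e ▸ c : _ ∈ Sep φ Q y) _ hQ.some_mem).symm)
      · exact c (e ▸ v.sep c h3)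
    have j := hp_adj H h1 (adj_of_hor h v).symm
    have k := sep_hor H h1 v
    rw [← j]
    exact ih (k.trans e) (by rw [j, k]; exact h) h2

/-- every hyperplane separating a vertex from `Q` is nested in one that is dual to an edge at `Q` -/
theorem Cvx.nest (hQ : Cvx φ Q) (h : r ∈ Sep φ Q x) : ∃ z ∈ Q, ∃ a y, st z a y ∧ y ∉ Q ∧
    ∀ u, sd φ r u = sd φ r x → sd φ (hp φ z a) z ≠ sd φ (hp φ z a) u := by
  generalize hn : ns φ Q x = n
  induction n using Nat.strong_induction_on generalizing r x with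
  | _ n ih =>
  by_cases c : ∃ a y, st x a y ∧ hp φ x a ∈ Sep φ Q x ∧ r ≠ hp φ x a
  · obtain ⟨a, y, h1, h2, h3⟩ := c
    have e := sd_st H h1 h3
    rw [← e]
    exact ih _ (by have := ns_desc H hQ.ne h1 h2; omega) (Sep.congr h e) rfl
  simp only [not_exists, not_and, not_not] at c
  obtain ⟨a, y, h1, h2⟩ := exists_desc H hQ.ne ⟨r, h⟩
  obtain rfl := c a y h1 h2
  have s1 := sd_st_ne H h1
  have l1 := ns_desc H hQ.ne h1 h2
  by_cases m : y ∈ Q
  · refine ⟨y, m, a, x, H.symm _ _ _ h1, fun k => h x k rfl, fun u hu => ?_⟩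
    rw [hp_st H h1, hu]
    exact s1.symm
  obtain ⟨b, y', k1, k2⟩ := exists_desc H hQ.ne (hQ.sep y m)
  have ne : a ≠ b := by
    rintro rfl
    exact (sep_desc H hQ.ne h1 h2).2 (hp_st H h1 ▸ k2)
  obtain ⟨z, hz, d, w, p1, p2, p3⟩ := ih _ (by omega) k2 rfl
  refine ⟨z, hz, d, w, p1, p2, fun u hu => p3 u (by_contra fun n' => ?_)⟩
  have j : Γ.Adj a b := adj_of_sep (x := y) (z := u) (by rw [hp_st H h1, hu]; exact s1.symm)
    (Ne.symm n') ne
  rw [hp_adj H h1 j] at k2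
  have k3 := Sep.congr k2 (sd_st H h1 fun e => ne (hw_inj e).symm).symm
  obtain ⟨y'', k4⟩ := exists_st H (k3 _ hQ.ne.some_mem)
  exact ne (hw_inj (c b y'' k4 k3))

end lab

end Crest.Agent.N255.Fa
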